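import Vale.Agent.P284.H894.F.DefsA
import Mathlib.MeasureTheory.Integral.CircleAverage
import Mathlib.MeasureTheory.Integral.Average

/-!
# P284, theorem TAN (helper731): bounded psh functions when the velocities of entire curves span the
tangent space at almost every point. Definitions of the rows. FROZEN.
-/

open scoped Manifold ContDiff Topology
open Filter Set Metric MeasureTheory

noncomputable section

namespace Vale.Agent.P284.H731.TAN

open Vale.Agent.P272.K Vale.Agent.P284.H894.G Vale.Agent.P284.H894.F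

/-- bounded psh function in the unit ball (polydisc) of `ℂⁿ` -/
structure Psh (n : ℕ) (w : Cm n → ℝ) : Prop where
  usc : ∀ z ∈ ball (0 : Cm n) 1, UpperSemicontinuousAt w z
  bdd : ∃ B : ℝ, ∀ z, |w z| ≤ B
  mean : ∀ (c b : Cm n) (ρ : ℝ), 0 < ρ → (∀ ζ ∈ closedBall (0 : ℂ) ρ, c + ζ • b ∈ ball (0 : Cm n) 1) →
    w c ≤ Real.circleAverage (fun ζ : ℂ => w (c + ζ • b)) 0 ρ

/-- **R0** (731): sub-mean inequality on balls -/
def R0 : Prop :=
  ∀ (n : ℕ) (w : Cm n → ℝ), Psh n w → ∀ (z : Cm n) (ρ : ℝ), 0 < ρ → ball z ρ ⊆ ball (0 : Cm n) 1 →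
    IntegrableOn w (ball z ρ) ∧ w z ≤ ⨍ y in ball z ρ, w y

/-- `L¹` differentiability at `x` -/
def DiffAt (n : ℕ) (w : Cm n → ℝ) (x : Cm n) (L : Cm n →L[ℝ] ℝ) : Prop :=
  Tendsto (fun ρ : ℝ => ρ⁻¹ * ⨍ h in ball (0 : Cm n) ρ, |w (x + h) - w x - L h|) (𝓝[>] 0) (𝓝 0)

/-- `v` is the velocity at `x` of a curve on which `w` is constant near `x` -/
def Tang (n : ℕ) (w : Cm n → ℝ) (x v : Cm n) : Prop :=
  ∃ f : ℂ → Cm n, HasDerivAt f v 0 ∧ f 0 = x ∧ ∀ᶠ t in 𝓝 (0 : ℂ), w (f t) = w x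

/-- local conclusion (assembly, 731) -/
def Loc : Prop :=
  ∀ (n : ℕ) (w : Cm n → ℝ), Psh n w →
    (∀ᵐ x ∂(volume.restrict (ball (0 : Cm n) 1)), Submodule.span ℂ {v | Tang n w x v} = ⊤) →
    ∀ᶠ z in 𝓝 (0 : Cm n), w z = w 0

section
variable (n : ℕ) {X : Type} [TopologicalSpace X] [ChartedSpace (Cm n) X]

/-- velocities at `x`, in the chart of the atlas at `x`, of the entire curves through `x` -/
def velocities (x : X) : Set (Cm n) :=
  {v | ∃ f : ℂ → X, ContMDiff 𝓘(ℂ) 𝓘(ℂ, Cm n) ω f ∧ f 0 = x ∧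
    ∀ k, deriv (fun s => chartAt (Cm n) x (f s) k) 0 = v k}

end

/-- conclusion of **R7** -/
def R7Concl : Prop :=
  ∀ (n : ℕ) (X : Type) [TopologicalSpace X] [T2Space X] [ChartedSpace (Cm n) X]
    [IsManifold 𝓘(ℂ, Cm n) ω X] (E : Type) [TopologicalSpace E] (p : E → X), IsCoveringMap p →
    Function.Surjective p →
    ∀ u : E → ℝ, IsPsh (n := n) p u → (∃ B : ℝ, ∀ y, |u y| ≤ B) → ∀ V : Set E, IsOpen V →
    IsPreconnected V → ∀ A : Set X, NullSet n A →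
    (∀ y ∈ V, p y ∉ A → Submodule.span ℂ (velocities n (p y)) = ⊤) → ∀ y ∈ V, ∀ y' ∈ V, u y = u y'

end Vale.Agent.P284.H731.TAN
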